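import Crest.Agent.X212.Ind26.Hb
import Crest.Agent.X212.Mcg32.Prep

/-!
# X212 / Reg33 (helper33): flags of faces of a simplex, sums over coboundaries carried by `O₋`
-/

set_option autoImplicit false
set_option linter.unusedSectionVars false

open Finset Classical

noncomputable section

namespace Crest.Agent.X212.Reg33

open Hp13 Cut21 Alg36
open Ind26 (nm tri)
open Kh11 (WS)

variable {P Q : Type} [PartialOrder P] [PartialOrder Q]

/-- fibre lemma for connections -/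
theorem fib {E : Set P} {F : Set Q} {R : Q → P → Prop} (up : ∀ x y y', R x y → y ≤ y' → R x y')
    (h : ∀ y ∈ E, ∃ x, R x y ∧ ∀ x', R x' y → Rch F x' x) {y y' : P} (hy : y ∈ E) (r : Rch E y y')
    {x x' : Q} (k : R x y) (k' : R x' y') : Rch F x x' := by
  refine r.ind (p := fun t => ∀ x', R x' t → Rch F x x') (fun w j => ?_)
    (fun a ha b hb l => ⟨fun H w j => ?_, fun H w j => H w (up _ _ _ j l)⟩) x' k'
  · obtain ⟨c, -, h2⟩ := h y hy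
    exact (h2 x k).trans (h2 w j).symm
  · obtain ⟨c, h1, -⟩ := h a ha
    obtain ⟨d, -, h2⟩ := h b hb
    exact (H c h1).trans ((h2 c (up _ _ _ h1 l)).trans (h2 w j).symm)

variable [Fintype P] {A : Set P}

/-- the part of a chain in `l` -/
def fl (d : Ch P) (l : Set P) (h : Mt l d) : Ch P :=
  d.sub (d.1.filter (· ∈ l)) (let ⟨a, h1, h2⟩ := h; ⟨a, mem_filter.2 ⟨h1, h2⟩⟩) (filter_subset _ _)

theorem mem_fl {d : Ch P} {l : Set P} {h : Mt l d} {x : P} : x ∈ (fl d l h).1 ↔ x ∈ d.1 ∧ x ∈ l :=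
  mem_filter

theorem fl_le {d : Ch P} {l : Set P} {h : Mt l d} : fl d l h ≤ d := fun _ k => (mem_fl.1 k).1

/-- flags of faces of `σ` that see the region, a low face and a high face -/
def GG (A : Set P) (L : Set (Ch P)) (σ : Ch P) : Set (Ch (Ch P)) :=
  {D | D.top ≤ σ ∧ Mt (Ch.top ⁻¹' A) D ∧ Mt L D ∧ Mt Lᶜ D}

theorem gg_conn {σ : Ch P} {l : Set P} {L : Set (Ch P)} (hA : Mt A σ) (hl : Mt l σ) (hh : Mt lᶜ σ)
    (h1 : ∀ d ≤ σ, (∀ x ∈ d.1, x ∈ l) → d ∈ L) (h2 : ∀ d ≤ σ, d ∈ L → Mt l d)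
    (h3 : ∀ d ≤ σ, (∃ a ∈ A, a ≤ d.top) → d ∈ L → ∀ y ∈ σ.1, y ≤ d.top → y ∈ l) :
    ∃ D₀ ∈ GG A L σ, ∀ D ∈ GG A L σ, Rch (GG A L σ) D D₀ := by
  obtain ⟨c, c1, c2, c3, c4⟩ := exists_c0 hA
  have hσ : σ ∉ L := fun k => let ⟨y, y1, y2⟩ := hh
    y2 (h3 σ le_rfl ⟨_, c2, Ch.top_mono c1⟩ k y y1 (Ch.le_top y1))
  have st : ∀ {D D' : Ch (Ch P)} (E : Ch (Ch P)), D ∈ GG A L σ → D' ∈ GG A L σ → D ≤ E → D' ≤ E →
      E.top ≤ σ → Rch (GG A L σ) D D' := fun {D D'} E a b k k' e =>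
    have m : E ∈ GG A L σ := ⟨e, a.2.1.mono k, a.2.2.1.mono k, a.2.2.2.mono k⟩
    (Rch.of_cm a m (Or.inl k)).trans (Rch.of_cm m b (Or.inr k'))
  have mem : ∀ (d d' : Ch P) (k : d ≤ d') (k' : d' ≤ σ), d ∈ L → d'.top ∈ A →
      tri d d' σ k k' ∈ GG A L σ := fun d d' k k' a b =>
    ⟨by simp, ⟨d', by simp, b⟩, ⟨d, by simp, a⟩, σ, by simp, hσ⟩
  have mv : ∀ (d d' e : Ch P) (k : d ≤ d') (k' : d' ≤ c) (j : d ≤ e) (j' : e ≤ c), d ∈ L →
      (e = d' ∧ e.top ∈ A) ∨ e = c → tri d e σ j (j'.trans c1) ≤ bt (tri d' c σ k' c1) d (by simpa) := by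
    rintro d d' e k k' j j' - (⟨rfl, -⟩ | rfl) x hx <;> simp at hx ⊢ <;> tauto
  have cl : Mt l c := by
    obtain ⟨x, x1, x2⟩ := hl
    rcases σ.total x1 (c1 c.top_mem) with k | k
    · exact ⟨x, c3 x x1 k, x2⟩
    · exact ⟨_, c.top_mem, h3 (Ch.pt x) (Ch.pt_le.2 x1) ⟨_, c2, by simpa using k⟩
        (h1 _ (Ch.pt_le.2 x1) (by simpa using x2)) _ (c1 c.top_mem) (by simpa using k)⟩
  have lo : ∀ (d : Ch P) (k : Mt l d), d ≤ σ → fl d l k ∈ L := fun d k j =>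
    h1 _ (fl_le.trans j) fun x hx => (mem_fl.1 hx).2
  have m2 : ∀ (d d' : Ch P) (k : d ≤ d') (k' : d' ≤ c), d ∈ L → d' ∈ L →
      Rch (GG A L σ) (tri d c σ (k.trans k') c1) (tri d' c σ k' c1) := fun d d' k k' a b =>
    st _ (mem _ _ _ _ a c2) (mem _ _ _ _ b c2) (mv d d' c k k' _ le_rfl a (Or.inr rfl)) (le_bt _ _ _)
      (by simp)
  refine ⟨tri _ c σ fl_le c1, mem _ _ _ _ (lo c cl c1) c2, fun D hD => ?_⟩
  obtain ⟨k1, ⟨d', a1, a2⟩, ⟨d, b1, b2⟩, -⟩ := id hD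
  have d1 := le_top' a1 k1
  have d2 : d' ≤ c := fun x hx => c3 x (d1 hx) ((Ch.le_top hx).trans (c4 _ (d1 d'.top_mem) a2))
  obtain ⟨e, e1, e2, e3⟩ : ∃ e ∈ D.1, e ∈ L ∧ e ≤ d' := by
    rcases D.total b1 a1 with k | k
    · exact ⟨d, b1, b2, k⟩
    · exact ⟨d', a1, h1 _ d1 fun x hx => h3 d (le_top' b1 k1) ⟨_, a2, Ch.top_mono k⟩ b2 x (d1 hx)
        (Ch.le_top (k hx)), le_rfl⟩
  have e4 := e3.trans d2
  have e5 := h2 e (e4.trans c1) e2
  refine ((st (tp D σ k1) hD (mem e d' e3 d1 e2 a2) (le_tp _ _ _)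
    (fun x hx => by simp at hx ⊢; rcases hx with rfl | rfl | rfl <;> simp [e1, a1]) (by simp)).trans
    (st _ (mem e d' e3 d1 e2 a2) (mem e c e4 c1 e2 c2) (mv e d' d' e3 d2 e3 d2 e2 (Or.inl ⟨rfl, a2⟩))
      (mv e d' c e3 d2 e4 le_rfl e2 (Or.inr rfl)) (by simp))).trans ?_
  exact (m2 _ e fl_le e4 (lo e e5 (e4.trans c1)) e2).symm.trans (m2 _ _
    (fun x hx => mem_fl.2 ⟨e4 (mem_fl.1 hx).1, (mem_fl.1 hx).2⟩) fl_le (lo e e5 (e4.trans c1))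
    (lo c cl c1))

/-- flags with given top inside the low faces -/
theorem sum_lo {e : Ch P} {l : Set P} {L : Ch P → Prop} (hl : Mt l e) (hh : Mt lᶜ e)
    (h1 : ∀ d ≤ e, (∀ x ∈ d.1, x ∈ l) → L d) (h2 : ∀ d ≤ e, L d → Mt l d) :
    ∑ C ∈ univ.filter (fun C : Ch (Ch P) => C.top = e ∧ ∀ d ∈ C.1, L d), C.sg = 0 := by
  have k : ∀ Z : Set (Ch P), {d | d ≤ fl e l hl} ⊆ Z → (∀ d ∈ Z, d ≤ e ∧ L d) → eu Z = 1 :=
    fun Z a b => (WS.of_int' a fun d hd => ⟨fl d l (h2 d (b d hd).1 (b d hd).2),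
      fun x hx => mem_fl.2 ⟨(b d hd).1 (mem_fl.1 hx).1, (mem_fl.1 hx).2⟩, fl_le,
      fun c hc j x hx => mem_fl.2 ⟨j hx, (mem_fl.1 (hc hx)).2⟩⟩).eu_eq.symm.trans
      (eu_cone (m := fl e l hl) (le_refl (fl e l hl)) fun _ j => Or.inr j)
  have s : ∀ d ≤ fl e l hl, d ≤ e ∧ L d := fun d hd =>
    ⟨hd.trans fl_le, h1 d (hd.trans fl_le) fun x hx => (mem_fl.1 (hd hx)).2⟩
  rw [eu_split (X := {d | d ≤ e ∧ L d}) (Y := {d | (d ≤ e ∧ L d) ∧ d ≠ e}) (fun _ h => h.1),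
    k {d | (d ≤ e ∧ L d) ∧ d ≠ e}
      (fun d hd => ⟨s d hd, fun j => let ⟨x, x1, x2⟩ := hh; x2 (mem_fl.1 (hd (j ▸ x1))).2⟩)
      fun _ h => h.1, k {d | d ≤ e ∧ L d} s fun _ h => h, sub_self]
  intro C
  refine ⟨fun h => ⟨fun d hd => ⟨h.1 ▸ Ch.le_top hd, h.2 d hd⟩, fun j => (j _ C.top_mem).2 h.1⟩,
    fun h => ⟨by_contra fun j => h.2 fun d hd => ⟨h.1 d hd, fun i => j ?_⟩, fun d hd => (h.1 d hd).2⟩⟩
  exact le_antisymm (h.1 _ C.top_mem).1 (i ▸ Ch.le_top hd)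

/-- the link of a point off the region -/
theorem lk (hM : Mf 3 A) (hN : Nice A) {o : P} (ho : o ∈ Om A) :
    ∑ c ∈ univ.filter (fun c : Ch P => o ∈ c.1), c.sg * iMt A c = 1 := by
  obtain ⟨h0, a, ha, k⟩ := ho
  have hS := (Nice.ctr_fb hN (Cm.rfl (x := o)) h0 h0 ⟨a, ha, Or.inr k, Or.inr k⟩).eu
  set S := Fb A o o
  have h1 := Mf.dual_sum hM (fun e => iIn (insert o S) e - iIn S e - iIn {o} e) fun e he => by
    have e1 : iIn S e = 0 := if_neg fun j => he ⟨_, e.top_mem, (j _ e.top_mem).1⟩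
    rw [e1, sub_zero, sub_eq_zero]
    have : (∀ x ∈ e.1, x ∈ insert o S) ↔ ∀ x ∈ e.1, x ∈ ({o} : Set P) :=
      forall₂_congr fun x hx => ⟨fun j => j.resolve_right fun i => he ⟨x, hx, i.1⟩, Or.inl⟩
    unfold iIn
    split_ifs with i j j
    exacts [rfl, absurd (this.1 i) j, absurd (this.2 j) i, rfl]
  have h2 : ∀ c : Ch P, ∑ e ∈ univ.filter (· ≤ c), e.sg * (iIn (insert o S) e - iIn S e - iIn {o} e) =
      if o ∈ c.1 then iMt A c else 0 := fun c => by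
    simp only [mul_sub, sum_sub_distrib, sum_iIn]
    split_ifs with j
    · rw [iMt_of (S := insert o S) ⟨o, j, Or.inl rfl⟩, iMt_of (S := {o}) ⟨o, j, rfl⟩]
      have : iMt S c = iMt A c := if_congr ⟨fun ⟨x, x1, x2⟩ => ⟨x, x1, x2.1⟩,
        fun ⟨x, x1, x2⟩ => ⟨x, x1, x2, c.cm x1 j, c.cm x1 j⟩⟩ rfl rfl
      omega
    · rw [iMt_not (S := {o}) fun ⟨x, x1, x2⟩ => j (x2 ▸ x1)]
      have : iMt (insert o S) c = iMt S c := if_congr ⟨fun ⟨x, x1, x2⟩ =>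
        ⟨x, x1, x2.resolve_left fun i => j (i ▸ x1)⟩, fun ⟨x, x1, x2⟩ => ⟨x, x1, Or.inr x2⟩⟩ rfl rfl
      omega
  have h3 := eu_cone (E := insert o S) (m := o) (Or.inl rfl) fun x hx =>
    hx.elim (fun i => i ▸ Cm.rfl) fun i => i.2.1.symm
  have h4 := eu_cone (E := {o}) (m := o) rfl fun x hx => hx ▸ Cm.rfl
  simp only [h2, mul_ite, mul_zero] at h1
  rw [sum_filter, h1]
  simp only [mul_sub, sum_sub_distrib]
  rw [eu_eq] at hS h3 h4
  omega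

theorem sum_bot' (G : Ch P → ℤ) (g : P → ℤ) : ∑ c : Ch P, c.sg * G c * g c.bot =
    ∑ a, (∑ c ∈ univ.filter (fun c : Ch P => c.bot = a), c.sg * G c) * g a := by
  rw [← sum_fiberwise (s := univ) (g := Ch.bot)]
  refine sum_congr rfl fun a _ => ?_
  rw [sum_mul]
  exact sum_congr rfl fun c hc => by rw [(mem_filter.1 hc).2]

theorem thr (C : Ch P) (G : Ch (Ch P) → ℤ)
    (h : ∀ c c₁ c₂ : Ch (Ch P), c₁.top = C → c₂.bot = C → c.1 = c₁.1 ∪ c₂.1 → G c = G c₂) :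
    ∑ c ∈ univ.filter (fun c : Ch (Ch P) => c.bot = C), c.sg * G c =
      -C.sg * ∑ c ∈ univ.filter (fun c : Ch (Ch P) => C ∈ c.1), c.sg * G c := by
  have h1 := sum_through C (fun _ => 1) G G fun c c₁ c₂ a b e => by rw [one_mul, h c c₁ c₂ a b e]
  have h2 := eps_ch C
  rw [eps, neg_inj] at h2
  simp only [mul_one, h2] at h1
  rw [h1]
  linear_combination (-∑ c ∈ univ.filter (fun c : Ch (Ch P) => c.bot = C), c.sg * G c) * C.sg_sq

/-- `chi` of a coboundary carried by `O₋` -/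
theorem chi_om {B : Set (Ch P)} (hB : B.OrdConnected) (hM : Mf 3 B) (hN : Nice B) {g : Ch P → ℤ}
    (hg : ∀ C, C ∉ Om B → g C = 0) : chi B (cb g) = ∑ C, C.sg * g C := by
  have e : chi B (cb g) = -∑ c : Ch (Ch P), c.sg * iMt B c * g c.bot := by
    rw [← sum_neg_distrib, chi, sum_filter]
    refine sum_congr rfl fun c _ => ?_
    split_ifs with hc
    · obtain ⟨a, a1, a2⟩ := id hc
      rw [iMt_of hc, cb, hg c.top fun ⟨k, b, b1, b2⟩ => k (hB.out a2 b1 ⟨Ch.le_top a1, b2⟩)]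
      ring
    · rw [iMt_not hc]; ring
  rw [e, sum_bot', ← sum_neg_distrib]
  refine sum_congr rfl fun C _ => ?_
  by_cases hC : C ∈ Om B
  · rw [thr C (iMt B), lk hM hN hC]
    · ring
    intro c c₁ c₂ a b e
    refine if_congr ⟨fun ⟨x, x1, x2⟩ => ⟨x, ?_, x2⟩,
      fun ⟨x, x1, x2⟩ => ⟨x, e ▸ mem_union_right _ x1, x2⟩⟩ rfl rfl
    exact (mem_union.1 (e ▸ x1)).resolve_left fun j => (om_dn hB hC (a ▸ Ch.le_top j)).1 x2
  · rw [hg C hC]; ring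

theorem sum_up (D : Ch (Ch P)) (p : Ch P → Prop) :
    ∑ e ∈ univ.filter (fun e => D ≤ e ∧ p e.top), e.sg =
      ∑ T ∈ univ.filter (fun T => D.top ≤ T ∧ p T), T.sg := by
  rw [← sum_Ft]
  exact sum_congr rfl fun T hT => Ft_eq D (mem_filter.1 hT).2.1

theorem om2 (C : Ch (Ch P)) : C ∈ Om (A2 A) ↔ C.top.top ∈ Om A := by
  rw [A2, Mcg32.om_sd, Mcg32.om_sd]; rfl

/-- `nm` of a coboundary carried by `O₋` -/
theorem nm_om (A : Set P) : ∃ ρ : Ch P → ℤ, ∀ g : Ch (Ch P) → ℤ, (∀ C, C ∉ Om (A2 A) → g C = 0) →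
    nm (A2 A) (cb g) = ∑ C, C.sg * (ρ C.top * g C) := by
  refine ⟨fun e => 1 + ∑ T ∈ univ.filter (fun T => e ≤ T ∧ T.top ∈ Om A), T.sg, fun g hg => ?_⟩
  let G : Ch (Ch (Ch P)) → ℤ := fun c => if c.top ∈ Om (A2 A) then 1 else 0
  have e : nm (A2 A) (cb g) = ∑ c : Ch (Ch (Ch P)), c.sg * g c.top -
      ∑ c : Ch (Ch (Ch P)), c.sg * G c * g c.bot := by
    rw [← sum_sub_distrib, nm, sum_filter]
    refine sum_congr rfl fun c _ => ?_
    simp only [G]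
    split_ifs with hc
    · rw [cb]; ring
    · rw [hg _ hc]; ring
  rw [e, sum_top, sum_bot', ← sum_neg_distrib, ← sum_sub_distrib]
  refine sum_congr rfl fun C _ => ?_
  have h1 : ∑ c ∈ univ.filter (fun c : Ch (Ch (Ch P)) => C ∈ c.1), c.sg * G c =
      ∑ T ∈ univ.filter (fun T => C.top ≤ T ∧ T.top ∈ Om A), T.sg := by
    have h2 := sum_up (Ch.pt C) fun T => T.top.top ∈ Om A
    rw [Ch.top_pt, sum_up C fun T => T.top ∈ Om A] at h2
    rw [← h2, sum_filter, sum_filter]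
    refine sum_congr rfl fun c _ => ?_
    simp only [G, om2, Ch.pt_le]
    split_ifs <;> simp_all
  rw [thr C G, h1, eps_ch]
  · ring
  intro c c₁ c₂ a b e
  have : c.top = c₂.top := Ch.top_eq (e ▸ mem_union_right _ c₂.top_mem) fun x hx =>
    (mem_union.1 (e ▸ hx)).elim (fun j => (Ch.le_top j).trans (a.le.trans (b.ge.trans c₂.bot_le_top)))
      Ch.le_top
  simp only [G, this]

theorem nm_congr {z z' : P → P → ℤ} (h : EqD A z z') : nm A z = nm A z' :=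
  sum_congr rfl fun c hc => by rw [h _ _ (Ind26.dp_om (mem_filter.1 hc).2 c.bot_le_top)]

theorem nm_add (z z' : P → P → ℤ) : nm A (z + z') = nm A z + nm A z' := by
  simp only [nm, Pi.add_apply, mul_add, sum_add_distrib]

theorem nm_tt (z : P → P → ℤ) : nm (A2 A) (pb (Ch.top ∘ Ch.top) z) = nm A z := by
  have := (acyc_top.comp Ch.top_mono acyc_top).sum (Ch.top_mono.comp Ch.top_mono)
    fun e : Ch P => if e.top ∈ Om A then z e.bot e.top else 0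
  simp only [Ch.top_img, Ch.bot_img, mul_ite, mul_zero] at this
  rw [nm, nm, sum_filter, sum_filter]
  simp only [om2]
  exact this

end Crest.Agent.X212.Reg33
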