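import Crest.Agent.X212.Reg33.Step

/-!
# X212 / Reg33 (helper33): REG, every surface is isotopic to one with regular boundary on `R₋`
-/

set_option autoImplicit false
set_option linter.unusedSectionVars false

open Finset Classical

noncomputable section

namespace Crest.Agent.X212.Reg33

open Hp13 Cut21 Alg36
open Ind26 (nm Iso RegStmt dp_om)

section

variable {P Q R : Type} [PartialOrder P] [Fintype P] [PartialOrder Q] [Fintype Q] [PartialOrder R]
  [Fintype R] {A : Set P} {z : P → P → ℤ}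

theorem iso_comp {B : Set Q} {C : Set R} {w : Q → Q → ℤ} {v : R → R → ℤ} [IsCoc A z] [IsCoc B w]
    [IsCoc C v] {f : Q → P} {g : R → Q} {m : Lv B w → Lv A z} {n : Lv C v → Lv B w}
    (h : Iso f A z B w m) (k : Iso g B w C v n) (hg : Monotone g) (e : C = g ⁻¹' B) :
    Iso (f ∘ g) A z C v (m ∘ n) := by
  have s : ∀ T, Sat T → Sat (m ⁻¹' T) := fun T hT p q l => hT _ _ (h.mono (show p ≤ q from l))
  have r : ∀ {p q}, Rch (LA B w) p q → Rch (LA A z) (m p) (m q) :=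
    Rch.map fun x hx y hy l => Rch.of_cm (h.la x hx) (h.la y hy) (Or.inl (h.mono l))
  refine ⟨h.mono.comp k.mono, fun p hp => h.la _ (k.la p hp), fun q hq => ?_,
    fun p hp q hq l => k.rch p hp q hq (h.rch _ (k.la p hp) _ (k.la q hq) l),
    fun T hT => (k.chi _ (s T hT)).trans (h.chi T hT), fun T hT => (k.nm _ (s T hT)).trans (h.nm T hT),
    fun T hT => ?_, fun x y a b c d => ?_⟩
  · obtain ⟨p, hp, l⟩ := h.surj q hq
    obtain ⟨p', hp', l'⟩ := k.surj p hp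
    exact ⟨p', hp', (r l').trans l⟩
  · obtain ⟨g₁, a1, a2⟩ := h.coh T hT
    obtain ⟨g₂, b1, b2⟩ := k.coh _ (s T hT)
    subst e
    refine ⟨g₁ ∘ g + g₂, fun o ho => ?_, b2.trans ?_⟩
    · obtain ⟨o1, a, o2, o3⟩ := id ho
      rw [Pi.add_apply, b1 o ho, add_zero]
      exact a1 _ ⟨o1, _, o2, hg o3⟩
    · rw [cb_add, ← add_assoc, pb_comp, ← pb_cb, ← pb_add]
      exact (a2.pb hg).add EqD.rfl
  · obtain ⟨x', y', a', b', c', d'⟩ := k.dip x y a b c d
    exact h.dip x' y' a' b' c' d'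

/-- jumps on `O₋` are at most `n` -/
def JN (A : Set P) (z : P → P → ℤ) (n : ℤ) : Prop := ∀ x y, y ∈ Om A → x ≤ y → z x y ≤ n

/-- a depth on `O₋` that depends on the range only -/
def dO (A : Set P) (z : P → P → ℤ) (φ : ℤ → ℤ) (d : Ch P) : ℤ :=
  if d.top ∈ Om A then φ (z d.bot d.top) else 0

theorem im_dO (hA : A.OrdConnected) (hz : Sf A z) {φ : ℤ → ℤ}
    (hφ : ∀ n, 0 ≤ n → 0 ≤ φ n ∧ φ n ≤ n) : IM A z (dO A z φ) := by
  refine ⟨hA, hz.coc, hz.mono, fun d hd => ?_, fun d hd => ?_, fun d hd => if_neg hd⟩ <;>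
    have := hz.mono _ _ hd.bt <;> have := hφ _ this <;> unfold dO <;> split_ifs <;> omega

theorem mu_dO (hA : A.OrdConnected) {φ : ℤ → ℤ} {e d : Ch P} {u : P → ℤ} (he : e.top ∈ Om A)
    (hu : Chart z e u) (hd : d ≤ e) : mu (dO A z φ) u d = u d.top - φ (u d.top - u d.bot) := by
  rw [mu, dO, if_pos (om_dn hA he (Ch.top_mono hd)),
    hu _ (hd d.bot_mem) _ (hd d.top_mem) d.bot_le_top]

theorem jn_half (hA : A.OrdConnected) (hz : Sf A z) {n : ℤ} (h : JN A z n) :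
    JN (A2 A) (rf (dO A z fun n => (n + 1) / 2) z) ((n + 1) / 2) := fun C D hD l => by
  have ho := (om2 D).1 hD
  have he := dom_om ho
  obtain ⟨u, hu⟩ := exists_chart hz.coc he
  obtain ⟨d, hd, e⟩ := hu.ex_vv (dO A z fun n => (n + 1) / 2) (C := D) le_rfl
  have h1 := hu.le_vv (δ := dO A z fun n => (n + 1) / 2) (Ch.top_mono l) C.top_mem
  rw [hu.rf le_rfl l, e, mu_dO hA ho hu (Ch.le_top hd)]
  rw [mu_dO hA ho hu (Ch.top_mono l)] at h1
  have k : ∀ c : Ch P, c ≤ D.top → u c.bot ≤ u c.top ∧ u c.top - u c.bot ≤ n := fun c hc =>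
    ⟨hu.le hz.mono he (hc c.bot_mem) (hc c.top_mem) c.bot_le_top,
      hu _ (hc c.bot_mem) _ (hc c.top_mem) c.bot_le_top ▸
        h _ _ (om_dn hA ho (Ch.top_mono hc)) c.bot_le_top⟩
  have k1 := k d (Ch.le_top hd)
  have k2 := k C.top (Ch.top_mono l)
  rcases D.total (l C.top_mem) hd with j | j
  · have := hu.le hz.mono he (Ch.le_top hd d.bot_mem) (Ch.top_mono l C.top.bot_mem) (Ch.bot_anti j)
    omega
  · have := hu.le hz.mono he (Ch.le_top hd d.top_mem) (Ch.top_mono l C.top.top_mem) (Ch.top_mono j)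
    omega

theorem rf_low (hA : A.OrdConnected) (hz : Sf A z) {C D : Ch (Ch P)} (hD : D ∈ Om (A2 A))
    (l : C ≤ D) : rf (dO A z id) z C D = pb (fun C : Ch (Ch P) => C.bot.bot) z C D := by
  have ho := (om2 D).1 hD
  have he := dom_om ho
  obtain ⟨u, hu⟩ := exists_chart hz.coc he
  have v : ∀ C : Ch (Ch P), C.top ≤ D.top → vv (dO A z id) z u C = u C.bot.bot := fun C k => by
    refine le_antisymm ((hu.vv_le k).2 fun d hd => ?_) ?_
    · have := hu.le hz.mono he (le_top' hd k d.bot_mem) (k (Mcg32.bb_mem C))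
        (Ch.bot_anti (Ch.bot_le hd))
      rw [mu_dO hA ho hu (le_top' hd k), id]
      omega
    · have := hu.le_vv (δ := dO A z id) k C.bot_mem
      rw [mu_dO hA ho hu (le_top' C.bot_mem k), id] at this
      omega
  rw [hu.rf le_rfl l, v D le_rfl, v C (Ch.top_mono l), pb,
    hu _ (Ch.top_mono l (Mcg32.bb_mem C)) _ (Mcg32.bb_mem D) (Mcg32.bb_mono l)]

theorem br_congr {w : P → P → ℤ} (h : BR A z) (e : ∀ x y, y ∈ Om A → x ≤ y → w x y = z x y) :
    BR A w := fun o ho y hy l j => by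
  convert h o ho y hy l (e o y hy l ▸ j) using 2
  ext y
  exact and_congr_right fun hy => and_congr_right fun l => by rw [e o y hy l]

end

/-- one step -/
theorem step {s : St} {z : s.P → s.P → ℤ} [IsCoc s.A z] (hs : Good s) (hz : Sf s.A z)
    {δ : Ch s.P → ℤ} (h : IM s.A z δ) : ∃ (f : s.sd.sd.P → s.P) (w : s.sd.sd.P → s.sd.sd.P → ℤ)
      (_ : IsCoc s.sd.sd.A w) (m : Lv s.sd.sd.A w → Lv s.A z), w = rf δ z ∧ Desc s s.sd.sd f ∧
      Sf s.sd.sd.A w ∧ Iso f s.A z s.sd.sd.A w m :=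
  haveI i : IsCoc (A2 s.A) (rf δ z) := ⟨coc_rf h.coc δ⟩
  ⟨_, _, i, h.mm, rfl, (Desc.sd s).step, ⟨mono_rf h.coc δ, i, h.noCl hz.noCl⟩,
    h.iso (Good.sd (Good.sd hs)).mf (Good.sd (Good.sd hs)).nice⟩

theorem reg (n : ℕ) : ∀ (s : St) (z : s.P → s.P → ℤ) [IsCoc s.A z], Good s → Sf s.A z →
    JN s.A z n → ∃ (t : St) (f : t.P → s.P) (w : t.P → t.P → ℤ) (_ : IsCoc t.A w)
      (m : Lv t.A w → Lv s.A z), Desc s t f ∧ Sf t.A w ∧ Iso f s.A z t.A w m ∧ JO t.A w ∧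
        BR t.A w := by
  induction n using Nat.strong_induction_on with
  | _ n ih =>
  intro s z _ hs hz h
  by_cases hn : n ≤ 1
  · obtain ⟨g, _, i, m, rfl, h0, h1, h2⟩ := step hs hz (im_dO hs.conv hz (φ := id) fun n k => ⟨k, le_rfl⟩)
    refine ⟨s.sd.sd, _, _, i, m, h0, h1, h2, fun C D hD l => ?_,
      br_congr (Mcg32.br_bb hs.conv hz.coc hz.mono) fun C D => rf_low hs.conv hz⟩
    have := h _ _ (om_dn hs.conv ((om2 D).1 hD) (Ch.le_top (Mcg32.bb_mem D))) (Mcg32.bb_mono l)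
    exact (rf_low hs.conv hz hD l).trans_le (this.trans (by omega))
  obtain ⟨g, _, i, m, rfl, h0, h1, h2⟩ := step hs hz
    (im_dO hs.conv hz (φ := fun n => (n + 1) / 2) fun n k => by omega)
  obtain ⟨t, f, w, j, m', d, k1, k2, k3⟩ := ih ((n + 1) / 2) (by omega) s.sd.sd _
    (Good.sd (Good.sd hs)) h1 (by push_cast; exact jn_half hs.conv hz h)
  exact ⟨t, _, w, j, _, h0.trans d, k1, iso_comp h2 k2 d.mono d.A_eq, k3⟩

/-- **REG** -/
theorem regStmt : RegStmt := fun s z _ hs hz =>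
  let ⟨N, hN⟩ := (Set.finite_range (Function.uncurry z)).bddAbove
  reg N.toNat s z hs hz fun x y _ _ => (hN ⟨(x, y), rfl⟩).trans (Int.self_le_toNat N)

end Crest.Agent.X212.Reg33
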