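import Crest.Agent.X212.Reg33.Num

/-!
# X212 / Reg33 (helper33): a refinement that moves the boundary on `R₋` is an isotopy
-/

set_option autoImplicit false
set_option linter.unusedSectionVars false

open Finset Classical

noncomputable section

namespace Crest.Agent.X212.Reg33

open Hp13 Cut21 Alg36
open Ind26 (nm tri Iso)
open Kh11 (Ch.dn)

variable {P : Type} [PartialOrder P] [Fintype P] {A : Set P} {z : P → P → ℤ} {δ : Ch P → ℤ}

/-- `δ` is in the range of the carrier and is carried by `O₋` -/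
structure IM (A : Set P) (z : P → P → ℤ) (δ : Ch P → ℤ) : Prop where
  conv : A.OrdConnected
  coc : Coc A z
  mono : Mono A z
  nn : ∀ d, Dom A d → 0 ≤ δ d
  le : ∀ d, Dom A d → δ d ≤ z d.bot d.top
  off : ∀ d : Ch P, d.top ∉ Om A → δ d = 0

/-- the correction -/
def gm (A : Set P) (δ : Ch P → ℤ) (z : P → P → ℤ) (C : Ch (Ch P)) : ℤ :=
  if C.top.top ∈ Om A then -dep δ z C else 0

theorem gm_off {C : Ch (Ch P)} (h : C ∉ Om (A2 A)) : gm A δ z C = 0 :=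
  if_neg fun k => h ((om2 C).2 k)

theorem not_om (hA : A.OrdConnected) {a x : P} (ha : a ∈ A) (h : a ≤ x) : x ∉ Om A :=
  fun ⟨k, _, hb, l⟩ => k (hA.out ha hb ⟨h, l⟩)

theorem dom_om {e : Ch P} (h : e.top ∈ Om A) : Dom A e :=
  let ⟨_, a, ha, k⟩ := h; ⟨a, ha, fun _ hx => Or.inr ((Ch.le_top hx).trans k)⟩

theorem lv_eq {e : Ch P} {u : P → ℤ} (hu : Chart z e u) {κ : Ch (Ch (Ch P))} (k : κ.top.top ≤ e) :
    z κ.top.top.bot κ.bot.top.top - dep δ z κ.bot = vv δ z u κ.bot - u κ.top.top.bot := by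
  have l := Ch.top_mono κ.bot_le_top κ.bot.top.top_mem
  rw [hu _ (k κ.top.top.bot_mem) _ (k l) (Ch.bot_le l), vv]
  ring

theorem nlev_shift {Q : Type} [PartialOrder Q] {B : Set Q} {w : Q → Q → ℤ} {T : Set (Lv A z)}
    {T' : Set (Lv B w)} {c : Ch P} {c' : Ch Q} {a b s : ℤ}
    (h : ∀ k, a ≤ k → k < b → (lev T' c' k ↔ lev T c (k + s))) :
    nlev T' c' a b = nlev T c (a + s) (b + s) := by
  rw [nlev, nlev]
  congr 1
  refine card_bij (fun k _ => k + s) (fun k hk => ?_) (fun k _ k' _ e => by omega) fun k hk => ?_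
  · obtain ⟨k1, k2⟩ := mem_filter.1 hk
    rw [mem_Ico] at k1
    exact mem_filter.2 ⟨mem_Ico.2 ⟨by omega, by omega⟩, (h k k1.1 k1.2).1 k2⟩
  · obtain ⟨k1, k2⟩ := mem_filter.1 hk
    rw [mem_Ico] at k1
    exact ⟨k - s, mem_filter.2 ⟨mem_Ico.2 ⟨by omega, by omega⟩,
      (h _ (by omega) (by omega)).2 (by rwa [sub_add_cancel])⟩, sub_add_cancel _ _⟩

namespace IM

variable (h : IM A z δ) {e d : Ch P} {u : P → ℤ} {C D : Ch (Ch P)}
include h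

theorem mu_le (he : Dom A e) (hd : d ≤ e) : mu δ u d ≤ u d.top := by
  have := h.nn d (he.mono hd); unfold mu; omega

theorem le_mu (he : Dom A e) (hu : Chart z e u) (hd : d ≤ e) : u d.bot ≤ mu δ u d := by
  have := h.le d (he.mono hd)
  rw [hu _ (hd d.bot_mem) _ (hd d.top_mem) d.bot_le_top] at this
  unfold mu; omega

theorem mu_off (hd : d.top ∉ Om A) : mu δ u d = u d.top := by rw [mu, h.off d hd, sub_zero]

theorem mu_pt (he : Dom A e) (hu : Chart z e u) {x : P} (hx : x ∈ e.1) :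
    mu δ u (Ch.pt x) = u x := by
  have h1 := h.mu_le (u := u) he (Ch.pt_le.2 hx)
  have h2 := h.le_mu he hu (Ch.pt_le.2 hx)
  simp only [Ch.top_pt, Ch.bot_pt] at h1 h2; omega

theorem vv_le (he : Dom A e) (hu : Chart z e u) (hC : C.top ≤ e) : vv δ z u C ≤ u C.top.top :=
  (hu.vv_le hC).2 fun d hd => (h.mu_le he (le_top' hd hC)).trans
    (hu.le h.mono he (le_top' hd hC d.top_mem) (hC C.top.top_mem) (Ch.top_mono (Ch.le_top hd)))

theorem le_vv (he : Dom A e) (hu : Chart z e u) (hC : C.top ≤ e) : u e.bot ≤ vv δ z u C :=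
  ((hu.le h.mono he e.bot_mem (hC C.top.bot_mem) (Ch.bot_anti hC)).trans (h.le_mu he hu hC)).trans
    (hu.le_vv hC C.top_mem)

theorem vv_off (he : Dom A e) (hu : Chart z e u) (hC : C.top ≤ e) (k : C.top.top ∉ Om A) :
    vv δ z u C = u C.top.top :=
  le_antisymm (h.vv_le he hu hC) (h.mu_off (u := u) k ▸ hu.le_vv hC C.top_mem)

theorem eqD : EqD (A2 A) (rf δ z) (pb (Ch.top ∘ Ch.top) z + cb (gm A δ z)) := by
  have k : ∀ C : Ch (Ch P), Dom A C.top → gm A δ z C = -dep δ z C := fun C hC => by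
    unfold gm
    split_ifs with h1
    · rfl
    obtain ⟨u, hu⟩ := exists_chart h.coc hC
    have := h.vv_off hC hu le_rfl h1
    unfold vv at this; omega
  intro C D hp
  have := dp_dom2 hp
  simp only [rf, cb, Pi.sub_apply, Pi.add_apply, k D this, k C (this.mono (Ch.top_mono hp.1))]
  ring

theorem sum_gm (ρ : Ch P → ℤ) : ∑ C : Ch (Ch P), C.sg * (ρ C.top * gm A δ z C) = 0 := by
  rw [← sum_fiberwise (s := univ) (g := Ch.top)]
  refine sum_eq_zero fun e _ => ?_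
  by_cases he : e.top ∈ Om A
  swap
  · exact sum_eq_zero fun C hC => by rw [gm, (mem_filter.1 hC).2, if_neg he]; ring
  have dm := dom_om he
  obtain ⟨u, hu⟩ := exists_chart h.coc dm
  have k : ∀ C ∈ univ.filter (fun C : Ch (Ch P) => C.top = e), C.sg * (ρ C.top * gm A δ z C) =
      ∑ t ∈ Ico (u e.bot) (u e.top), -ρ e * if ∀ d ∈ C.1, mu δ u d ≤ t then C.sg else 0 := by
    intro C hC
    have e1 := (mem_filter.1 hC).2
    have h1 := h.vv_le dm hu e1.le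
    have h2 := h.le_vv dm hu e1.le
    simp only [← hu.vv_le e1.le]
    rw [← mul_sum, ← sum_filter, Ico_filter_le, sum_const, Int.card_Ico, max_eq_right h2, gm, e1,
      if_pos he, nsmul_eq_mul, Int.toNat_of_nonneg (by rw [← e1]; omega), vv, e1]
    ring
  rw [sum_congr rfl k, sum_comm]
  refine sum_eq_zero fun t ht => ?_
  rw [← mul_sum, ← sum_filter, filter_filter]
  refine mul_eq_zero_of_right _ ?_
  convert sum_lo (l := {x | u x ≤ t}) (L := fun d => mu δ u d ≤ t)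
    ⟨_, e.bot_mem, (mem_Ico.1 ht).1⟩ ⟨_, e.top_mem, (mem_Ico.1 ht).2.not_ge⟩
    (fun d hd j => (h.mu_le dm hd).trans (j _ d.top_mem))
    (fun d hd j => ⟨_, d.bot_mem, (h.le_mu dm hu hd).trans j⟩)

theorem chi (hM : Mf 3 (A2 A)) (hN : Nice (A2 A)) : chi (A2 A) (rf δ z) = chi A z := by
  have := h.sum_gm 1
  simp only [Pi.one_apply, one_mul] at this
  rw [chi_congr h.eqD, chi_add, chi_om (convex_pre Ch.top_mono (convex_pre Ch.top_mono h.conv)) hM hN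
    fun _ => gm_off, this, add_zero]
  exact (chi_top (A := Ch.top ⁻¹' A) (pb Ch.top z)).trans (chi_top z)

theorem nm : nm (A2 A) (rf δ z) = nm A z := by
  obtain ⟨ρ, k⟩ := nm_om A
  rw [nm_congr h.eqD, nm_add, k _ fun _ => gm_off, h.sum_gm, add_zero, nm_tt]

/-- the carrier of a cell -/
def mm (p : Lv (A2 A) (rf δ z)) : Lv A z :=
  ⟨(p.1.1.top.top, p.1.2 + (z p.1.1.top.top.bot p.1.1.bot.top.top - dep δ z p.1.1.bot)),
    dp_dom2 p.2.1.bt, by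
    have he := dp_dom2 p.2.1.bt
    obtain ⟨u, hu⟩ := exists_chart h.coc he
    have h1 := p.2.2.1
    have h2 := p.2.2.2
    have h3 := h.le_vv he hu (Ch.top_mono p.1.1.bot_le_top)
    have h4 := h.vv_le he hu le_rfl
    rw [hu.rf le_rfl p.1.1.bot_le_top] at h2
    dsimp only
    rw [lv_eq hu le_rfl, hu _ p.1.1.top.top.bot_mem _ p.1.1.top.top.top_mem p.1.1.top.top.bot_le_top]
    omega⟩

theorem mm_la {p : Lv (A2 A) (rf δ z)} (k : p ∈ LA (A2 A) (rf δ z)) : h.mm p ∈ LA A z :=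
  let ⟨C, h1, h2⟩ := k; ⟨_, Ch.top_mono (Ch.le_top h1) C.top.top_mem, h2⟩

variable [IsCoc A z] [IsCoc (A2 A) (rf δ z)] {p p' : Lv (A2 A) (rf δ z)} {q : Lv A z}

theorem mm_le (hu : Chart z q.1.1 u) : h.mm p ≤ q ↔
    p.1.1.top.top ≤ q.1.1 ∧ vv δ z u p.1.1.bot + p.1.2 = u q.1.1.bot + q.1.2 := by
  refine Lv.le_iff.trans (and_congr_right fun k : p.1.1.top.top ≤ q.1.1 => ?_)
  simp only [mm]
  rw [lv_eq hu k, hu _ q.1.1.bot_mem _ (k p.1.1.top.top.bot_mem) (Ch.bot_anti k)]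
  omega

theorem mm_mono : Monotone h.mm := fun p p' k => by
  obtain ⟨u, hu⟩ := exists_chart h.coc (h.mm p').2.1
  obtain ⟨k1, k2⟩ := Lv.le_iff.1 k
  have k3 : p.1.1.top.top ≤ p'.1.1.top.top := Ch.top_mono (Ch.top_mono k1)
  have k4 := ((h.mm_le hu).1 (le_refl (h.mm p'))).2
  rw [hu.rf ((Ch.top_mono p.1.1.bot_le_top).trans k3) (Ch.bot_anti k1)] at k2
  exact (h.mm_le hu).2 ⟨k3, by omega⟩

theorem cell_le (k : h.mm p ≤ q) (k' : h.mm p' ≤ q) (l : p.1.1 ≤ p'.1.1) : p ≤ p' := by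
  obtain ⟨u, hu⟩ := exists_chart h.coc q.2.1
  obtain ⟨k1, k2⟩ := (h.mm_le hu).1 k
  obtain ⟨-, k3⟩ := (h.mm_le hu).1 k'
  refine Lv.le_iff.2 ⟨l, ?_⟩
  rw [hu.rf ((Ch.top_mono p.1.1.bot_le_top).trans k1) (Ch.bot_anti l)]
  omega

theorem cell (hu : Chart z q.1.1 u) {κ : Ch (Ch (Ch P))} (hκ : Dom (A2 A) κ)
    (k : κ.top.top ≤ q.1.1) (lo : Mt {C | vv δ z u C ≤ u q.1.1.bot + q.1.2} κ)
    (hi : Mt {C | vv δ z u C ≤ u q.1.1.bot + q.1.2}ᶜ κ) : ∃ p, p.1.1 = κ ∧ h.mm p ≤ q := by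
  obtain ⟨C, c1, c2⟩ := lo
  obtain ⟨D, d1, d2⟩ := hi
  have h1 := hu.vv_mono (δ := δ) ((Ch.top_mono (Ch.le_top c1)).trans k) (Ch.bot_le c1)
  have h2 := hu.vv_mono (δ := δ) k (Ch.le_top d1)
  have c3 : vv δ z u C ≤ _ := c2
  have d3 : ¬ vv δ z u D ≤ _ := d2
  exact ⟨⟨(κ, u q.1.1.bot + q.1.2 - vv δ z u κ.bot), hκ, by dsimp only; omega, by
    dsimp only; rw [hu.rf k κ.bot_le_top]; omega⟩, rfl, (h.mm_le hu).2 ⟨k, by dsimp only; omega⟩⟩

/-- the fibres of the carrier map are connected -/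
theorem fibre (hq : q ∈ LA A z) : ∃ p, (p ∈ LA (A2 A) (rf δ z) ∧ h.mm p ≤ q) ∧
    ∀ p', (p' ∈ LA (A2 A) (rf δ z) ∧ h.mm p' ≤ q) → Rch (LA (A2 A) (rf δ z)) p' p := by
  have he := q.2.1
  obtain ⟨u, hu⟩ := exists_chart h.coc he
  have q1 := q.2.2.1
  have q2 := q.2.2.2
  rw [hu _ q.1.1.bot_mem _ q.1.1.top_mem q.1.1.bot_le_top] at q2
  set t := u q.1.1.bot + q.1.2 with ht
  have mt : ∀ p, h.mm p ≤ q → p.1.1.top.top ≤ q.1.1 ∧ vv δ z u p.1.1.bot ≤ t ∧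
      ¬ vv δ z u p.1.1.top ≤ t := fun p k => by
    obtain ⟨k1, k2⟩ := (h.mm_le hu).1 k
    have := p.2.2.1
    have k3 := p.2.2.2
    rw [hu.rf k1 p.1.1.bot_le_top] at k3
    exact ⟨k1, by omega, by omega⟩
  obtain ⟨D₀, h0, G⟩ := gg_conn (σ := q.1.1) (l := {x | u x ≤ t}) (L := {d | mu δ u d ≤ t}) hq
    ⟨_, q.1.1.bot_mem, show _ ≤ t by omega⟩ ⟨_, q.1.1.top_mem, show ¬ _ ≤ t by omega⟩
    (fun d hd j => (h.mu_le he hd).trans (j _ d.top_mem))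
    (fun d hd j => ⟨_, d.bot_mem, (h.le_mu he hu hd).trans j⟩)
    fun d hd ⟨a, a1, a2⟩ j y y1 y2 => (hu.le h.mono he y1 (hd d.top_mem) y2).trans
      ((h.mu_off (not_om h.conv a1 a2)).symm.trans_le j)
  have F : ∀ D ∈ GG A {d | mu δ u d ≤ t} q.1.1, ∃ p,
      ((p ∈ LA (A2 A) (rf δ z) ∧ h.mm p ≤ q) ∧ p.1.1.top ≤ D) ∧ ∀ p',
        ((p' ∈ LA (A2 A) (rf δ z) ∧ h.mm p' ≤ q) ∧ p'.1.1.top ≤ D) →
          Rch (LA (A2 A) (rf δ z)) p' p := fun D hD => by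
    have s : ∀ C ≤ D, C.top ≤ q.1.1 := fun C k => (Ch.top_mono k).trans hD.1
    obtain ⟨κ₀, k0, K⟩ := gg_conn (σ := D) (L := {C | vv δ z u C ≤ t}) hD.2.1 hD.2.2.1 hD.2.2.2
      (fun C k j => (hu.vv_le (s C k)).2 j)
      (fun C k j => ⟨_, C.top_mem, (hu.le_vv (s C k) C.top_mem).trans j⟩)
      fun C k ⟨a, a1, a2⟩ j y y1 y2 => ((h.mu_le he (le_top' y1 hD.1)).trans
        (hu.le h.mono he (le_top' y1 hD.1 y.top_mem) (s C k C.top.top_mem) (Ch.top_mono y2))).trans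
        ((h.vv_off he hu (s C k) (not_om h.conv a1 (Ch.top_mono a2))).symm.trans_le j)
    have E : ∀ κ ∈ GG (Ch.top ⁻¹' A) {C | vv δ z u C ≤ t} D, ∃ p,
        ((p ∈ LA (A2 A) (rf δ z) ∧ h.mm p ≤ q) ∧ p.1.1 ≤ κ) ∧ ∀ p',
          ((p' ∈ LA (A2 A) (rf δ z) ∧ h.mm p' ≤ q) ∧ p'.1.1 ≤ κ) →
            Rch (LA (A2 A) (rf δ z)) p' p := fun κ hκ => by
      obtain ⟨p, rfl, k⟩ := h.cell hu hκ.2.1.dom (s _ hκ.1) hκ.2.2.1 hκ.2.2.2
      exact ⟨p, ⟨⟨hκ.2.1, k⟩, le_rfl⟩, fun p' j =>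
        Rch.of_cm j.1.1 hκ.2.1 (Or.inl (h.cell_le j.1.2 k j.2))⟩
    obtain ⟨p, a, -⟩ := E κ₀ k0
    refine ⟨p, ⟨a.1, (Ch.top_mono a.2).trans k0.1⟩, fun p' j => ?_⟩
    have m : p'.1.1 ∈ GG (Ch.top ⁻¹' A) {C | vv δ z u C ≤ t} D := ⟨j.2, j.1.1,
      ⟨_, p'.1.1.bot_mem, (mt _ j.1.2).2.1⟩, _, p'.1.1.top_mem, (mt _ j.1.2).2.2⟩
    exact fib (fun _ _ _ i l => ⟨i.1, i.2.trans l⟩) E m (K _ m) ⟨j.1, le_rfl⟩ a
  obtain ⟨p, a, -⟩ := F D₀ h0
  refine ⟨p, a.1, fun p' j => ?_⟩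
  obtain ⟨k1, k2, k3⟩ := mt _ j.2
  obtain ⟨C, c1, c2⟩ := j.1
  obtain ⟨d, d1, d2⟩ := hu.ex_vv δ k1
  have m : p'.1.1.top ∈ GG A {d | mu δ u d ≤ t} q.1.1 := ⟨k1, ⟨_, Ch.le_top c1 C.top_mem, c2⟩,
    ⟨_, p'.1.1.bot_le_top p'.1.1.bot.top_mem,
      (hu.le_vv ((Ch.top_mono p'.1.1.bot_le_top).trans k1) p'.1.1.bot.top_mem).trans k2⟩,
    d, d1, by rwa [d2] at k3⟩
  exact fib (fun _ _ _ i l => ⟨i.1, i.2.trans l⟩) F m (G _ m) ⟨⟨⟨C, c1, c2⟩, j.2⟩, le_rfl⟩ a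

theorem rch (hp : p ∈ LA (A2 A) (rf δ z)) (hp' : p' ∈ LA (A2 A) (rf δ z))
    (k : Rch (LA A z) (h.mm p) (h.mm p')) : Rch (LA (A2 A) (rf δ z)) p p' :=
  fib (R := fun p q => p ∈ LA (A2 A) (rf δ z) ∧ h.mm p ≤ q) (fun _ _ _ i l => ⟨i.1, i.2.trans l⟩)
    (fun _ => h.fibre) (h.mm_la hp) k ⟨hp, le_rfl⟩ ⟨hp', le_rfl⟩

omit [IsCoc A z] [IsCoc (A2 A) (rf δ z)] in
/-- a boundary edge of the carrier gives a boundary edge of the refinement -/
theorem base (he : Mt A e) (hu : Chart z e u) {x y : P} (hx : x ∈ e.1) (hy : y ∈ e.1) (hxy : x ≤ y)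
    (hx' : x ∉ A) (hy' : y ∉ A) {t : ℤ} (h1 : u x ≤ t) (h2 : t < u y) :
    ∃ C D E : Ch (Ch P), C ≤ D ∧ C ∉ A2 A ∧ D ∉ A2 A ∧ E ∈ A2 A ∧ Cm E C ∧ Cm E D ∧ D.top ≤ e ∧
      E.top ≤ e ∧ vv δ z u C ≤ t ∧ t < vv δ z u D := by
  obtain ⟨c, c1, c2, c3, c4⟩ := exists_c0 he
  have inA : ∀ {C : Ch (Ch P)}, C.top = c → C ∈ A2 A := fun {C} k => by
    show C.top.top ∈ A; rwa [k]
  have p1 : vv δ z u (Ch.pt (Ch.pt x)) ≤ t := by
    rwa [hu.vv_pt (Ch.pt_le.2 hx), h.mu_pt he.dom hu hx]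
  have p2 : Ch.pt (Ch.pt x) ∉ A2 A := by simpa using hx'
  have q1 : ∀ (C : Ch (Ch P)) (k : C.top ≤ e), c.top ≤ y → tp C e k ∉ A2 A ∧
      t < vv δ z u (tp C e k) := fun C k l => by
    refine ⟨by simpa using not_up h.conv c2 l hy' (Ch.le_top hy), ?_⟩
    rw [h.vv_off he.dom hu (by simp) (by simpa using not_om h.conv c2 (Ch.top_mono c1)), top_tp]
    exact h2.trans_le (hu.le h.mono he.dom hy e.top_mem (Ch.le_top hy))
  rcases e.total hy (c1 c.top_mem) with k | k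
  · have l1 : Ch.pr x y hxy ≤ c := pr_le (c3 x hx (hxy.trans k)) (c3 y hy k)
    have fin : ∀ (C : Ch (Ch P)) (s : P) (l : Ch.pt s ≤ Ch.pr x y hxy), C ≤ Ch.pr _ _ l →
        C ∉ A2 A → vv δ z u C ≤ t → t < vv δ z u (Ch.pr _ _ l) → _ := fun C s l a b i j =>
      (⟨C, Ch.pr _ _ l, tp (Ch.pr _ _ l) c (by simpa using l1), a, b, by simpa using hy',
        inA (by simp), Or.inr (a.trans (le_tp _ _ _)), Or.inr (le_tp _ _ _),
        by simpa using l1.trans c1, by simpa using c1, i, j⟩ : ∃ C D E : Ch (Ch P), C ≤ D ∧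
          C ∉ A2 A ∧ D ∉ A2 A ∧ E ∈ A2 A ∧ Cm E C ∧ Cm E D ∧ D.top ≤ e ∧ E.top ≤ e ∧
          vv δ z u C ≤ t ∧ t < vv δ z u D)
    by_cases l : mu δ u (Ch.pr x y hxy) ≤ t
    · exact fin (Ch.pt (Ch.pr x y hxy)) y (Ch.pt_le.2 (by simp)) (Ch.pt_le.2 (by simp))
        (by simpa using hy') (by rwa [hu.vv_pt (l1.trans c1)]) (h2.trans_le
          (h.mu_pt he.dom hu hy ▸ hu.le_vv (d := Ch.pt y) (by simpa using l1.trans c1) (by simp)))
    · exact fin _ x (Ch.pt_le.2 (by simp)) (Ch.pt_le.2 (by simp)) p2 p1 ((not_le.1 l).trans_le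
        (hu.le_vv (by simpa using l1.trans c1) (by simp)))
  rcases e.total hx (c1 c.top_mem) with k' | k'
  · let E := Ch.pr (Ch.pt x) c (Ch.pt_le.2 (c3 x hx k'))
    have l2 : E.top ≤ e := by simpa [E] using c1
    have l5 : Ch.pt (Ch.pt x) ≤ E := Ch.pt_le.2 (by simp [E])
    exact ⟨_, tp E e l2, E, l5.trans (le_tp _ _ _), p2, (q1 E l2 k).1, inA (by simp [E]), Or.inr l5,
      Or.inl (le_tp _ _ _), by simp, l2, p1, (q1 E l2 k).2⟩
  · let C := Ch.pr c _ (le_dn c1 k' : c ≤ Ch.dn e x (Ch.bot_le hx))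
    have l2 : C.top ≤ e := by simpa [C] using dn_le
    have l3 : C.top.top = x := by simp [C, top_dn hx]
    have l5 : Ch.pt c ≤ C := Ch.pt_le.2 (by simp [C])
    exact ⟨C, tp C e l2, Ch.pt c, le_tp _ _ _, show C.top.top ∉ A from l3 ▸ hx', (q1 C l2 k).1,
      inA (by simp), Or.inl l5, Or.inl (l5.trans (le_tp _ _ _)), by simp, by simpa using c1,
      by rwa [h.vv_off he.dom hu l2 (l3 ▸ not_om h.conv c2 k'), l3], (q1 C l2 k).2⟩

theorem noCl (hn : NoCl A z) : NoCl (A2 A) (rf δ z) := by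
  rintro _ ⟨p, hp, rfl⟩
  obtain ⟨q, ⟨q1, q2⟩, r, r1, r2⟩ := hn _ (isCmp_cmp (h.mm_la hp))
  obtain ⟨u, hu⟩ := exists_chart h.coc q.2.1
  obtain ⟨r3, r4⟩ := Lv.le_iff.1 (Lv.le_def.1 r2)
  have r5 := r.2.2.1
  have r6 := r.2.2.2
  rw [hu _ q.1.1.bot_mem _ (r3 r.1.1.bot_mem) (Ch.bot_anti r3)] at r4
  rw [hu _ (r3 r.1.1.bot_mem) _ (r3 r.1.1.top_mem) r.1.1.bot_le_top] at r6
  obtain ⟨C, D, E, a1, a2, a3, a4, a5, a6, a7, a8, a9, a10⟩ := h.base q1 hu (r3 r.1.1.bot_mem)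
    (r3 r.1.1.top_mem) r.1.1.bot_le_top (off_bt r1).1 (off_bt r1).2 (t := u q.1.1.bot + q.1.2)
    (by omega) (by omega)
  let κ := (Ch.pr C D a1).ins E fun x hx => (mem_pr.1 hx).elim (fun e => e ▸ a5) fun e => e ▸ a6
  have m : Mt (A2 A) κ := ⟨E, mem_insert_self _ _, a4⟩
  have l : Ch.pr C D a1 ≤ κ := Ch.le_ins _ _ _
  have lo : Mt {C | vv δ z u C ≤ u q.1.1.bot + q.1.2} (Ch.pr C D a1) := ⟨C, by simp, a9⟩
  have hi : Mt {C | vv δ z u C ≤ u q.1.1.bot + q.1.2}ᶜ (Ch.pr C D a1) := ⟨D, by simp, a10.not_ge⟩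
  obtain ⟨p₀, b1, b2⟩ := h.cell hu (m.dom.mono l) (by simpa using a7) lo hi
  obtain ⟨p₁, b3, b4⟩ := h.cell hu m.dom (by
    rcases mem_insert.1 κ.top_mem with e | e
    · rwa [e]
    · exact (Ch.top_mono (Ch.le_top e)).trans (by simpa using a7)) (lo.mono l) (hi.mono l)
  have m1 : p₁ ∈ LA (A2 A) (rf δ z) := show Mt _ p₁.1.1 from b3 ▸ m
  refine ⟨p₁, ⟨m1, h.rch hp m1 (q2.trans (Rch.of_cm q1 (h.mm_la m1) (Or.inr b4)))⟩, p₀, ?_,
    h.cell_le b2 b4 (b1 ▸ b3 ▸ l)⟩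
  rintro ⟨x, x1, x2⟩
  rw [b1] at x1
  exact (mem_pr.1 x1).elim (fun e => a2 (e ▸ x2)) fun e => a3 (e ▸ x2)

/-- the depth for a part of the surface -/
def dl (δ : Ch P → ℤ) (T : Set (Lv A z)) (d : Ch P) : ℤ :=
  nlev T d (z d.bot d.top - δ d) (z d.bot d.top)

omit [IsCoc (A2 A) (rf δ z)] in
theorem part {T : Set (Lv A z)} (hT : Sat T) : IM A (cnt T) (dl δ T) :=
  ⟨h.conv, hT.coc h.mono, mono_cnt, fun _ _ => nlev_nonneg _ _ _, fun d hd => by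
    have h1 := h.nn d hd
    have h2 := h.le d hd
    have := nlev_nonneg (T := T) d 0 (z d.bot d.top - δ d)
    rw [hT.cnt_bt h.mono hd, nlev_add d (b := z d.bot d.top - δ d) (by omega) (by omega), dl]
    omega, fun d hd => by simp [dl, h.off d hd, nlev]⟩

theorem cnt_mm {T : Set (Lv A z)} (hT : Sat T) :
    EqD (A2 A) (cnt (h.mm ⁻¹' T)) (rf (dl δ T) (cnt T)) := fun C D hp => by
  have he := dp_dom2 hp
  set e := D.top with he'
  have hu : Chart z e (z e.bot) := fun x hx y hy l => by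
    rw [h.coc.add' he e.bot_mem hx hy (Ch.bot_le hx) l]; ring
  have z0 : z e.bot e.bot = 0 := dom_zero he e.bot_mem
  have nn : ∀ x ∈ e.1, 0 ≤ z e.bot x := fun x hx => h.mono _ _ (he.dp e.bot_mem hx (Ch.bot_le hx))
  have N : ∀ a b, 0 ≤ a → a ≤ b → nlev T e a b = nlev T e 0 b - nlev T e 0 a := fun a b i j => by
    rw [nlev_add e i j]; ring
  have hv : Chart (cnt T) e fun x => nlev T e 0 (z e.bot x) := fun x hx y hy l => by
    rw [hT.cnt_eq h.mono he hx hy l, N _ _ (nn x hx) (hu.le h.mono he hx hy l)]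
  have m : ∀ d ≤ e, 0 ≤ mu δ (z e.bot) d ∧
      mu (dl δ T) (fun x => nlev T e 0 (z e.bot x)) d = nlev T e 0 (mu δ (z e.bot) d) := fun d hd => by
    have h1 := (nn _ (hd d.bot_mem)).trans (h.le_mu he hu hd)
    refine ⟨h1, ?_⟩
    have h2 := h.le d (he.mono hd)
    have h3 := N _ _ h1 (h.mu_le he hd)
    have h4 := hu _ (hd d.bot_mem) _ (hd d.top_mem) d.bot_le_top
    rw [mu, dl, hT.shift h.mono he hd (by omega) le_rfl,
      show z d.bot d.top - δ d + z e.bot d.bot = mu δ (z e.bot) d by rw [mu]; omega,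
      show z d.bot d.top + z e.bot d.bot = z e.bot d.top by omega, h3]
    ring
  have mo : ∀ a b, 0 ≤ a → a ≤ b → nlev T e 0 a ≤ nlev T e 0 b := fun a b i j => by
    have := N a b i j
    have := nlev_nonneg (T := T) e a b
    omega
  have v : ∀ C : Ch (Ch P), C.top ≤ e → vv (dl δ T) (cnt T) (fun x => nlev T e 0 (z e.bot x)) C =
      nlev T e 0 (vv δ z (z e.bot) C) := fun C k => by
    refine le_antisymm ((hv.vv_le k).2 fun d hd => ?_) ?_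
    · rw [(m d (le_top' hd k)).2]
      exact mo _ _ (m d (le_top' hd k)).1 (hu.le_vv k hd)
    · obtain ⟨d, hd, i⟩ := hu.ex_vv δ k
      rw [i, ← (m d (le_top' hd k)).2]
      exact hv.le_vv k hd
  have c1 := Ch.top_mono hp.1
  have c2 := h.le_vv he hu c1
  rw [hv.rf le_rfl hp.1, v D le_rfl, v C c1, ← N _ _ (by omega) (hu.vv_mono le_rfl hp.1), cnt,
    dif_pos hp.1, nlev_shift (T := T) (c := e) (s := vv δ z (z e.bot) C), hu.rf le_rfl hp.1]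
  · simp
  intro k k1 k2
  let p : Lv (A2 A) (rf δ z) := ⟨(Ch.pr C D hp.1, k), (dom_pr hp.1).2 hp, by simpa using ⟨k1, k2⟩⟩
  have e1 : (h.mm p).1.1 = e := by simp [mm, p, he']
  have e2 : (h.mm p).1.2 = k + vv δ z (z e.bot) C := by
    simp only [mm, p]
    rw [lv_eq hu (by simp [he'])]
    simp [← he', z0]
  refine (lev_self (q := p)).trans ?_
  rw [← e2]
  conv_rhs => rw [← e1]
  exact (lev_self (T := T) (q := h.mm p)).symm

theorem iso (hM : Mf 3 (A2 A)) (hN : Nice (A2 A)) :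
    Iso (Ch.top ∘ Ch.top) A z (A2 A) (rf δ z) h.mm where
  mono := h.mm_mono
  la _ := h.mm_la
  surj q hq := let ⟨p, k, _⟩ := h.fibre hq; ⟨p, k.1, Rch.of_cm (h.mm_la k.1) hq (Or.inl k.2)⟩
  rch _ hp _ := h.rch hp
  chi _ hT := (chi_congr (h.cnt_mm hT)).trans ((h.part hT).chi hM hN)
  nm _ hT := (nm_congr (h.cnt_mm hT)).trans (h.part hT).nm
  coh _ hT := ⟨_, fun _ ho => gm_off fun k =>
    om_op (convex_pre Ch.top_mono (convex_pre Ch.top_mono h.conv)) k ho,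
    (h.cnt_mm hT).trans (h.part hT).eqD⟩
  dip C D hp hC hD k := by
    have he := dp_dom2 hp
    obtain ⟨u, hu⟩ := exists_chart h.coc he
    have c1 := Ch.top_mono hp.1
    obtain ⟨d1, E, e1, e2⟩ := hD
    have e3 := Ch.top_mono (Ch.top_mono e2)
    have v := h.vv_le he hu le_rfl
    rw [hu.rf le_rfl hp.1] at k
    have fin : ∀ x ∈ C.top.1, x ∉ A → u x ≤ vv δ z u C → ∃ x' y', Dp A x' y' ∧ x' ∉ A ∧
        y' ∈ Op A ∧ 0 < z x' y' := fun x a b c =>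
      ⟨x, D.top.top, he.dp (c1 a) D.top.top_mem (Ch.le_top (c1 a)), b, ⟨d1, _, e1, e3⟩, by
        rw [hu _ (c1 a) _ D.top.top_mem (Ch.le_top (c1 a))]; omega⟩
    by_cases j : C.top.top ∈ Om A
    · exact fin _ C.top.bot_mem (om_dn h.conv j C.top.bot_le_top).1
        ((h.le_mu he hu c1).trans (hu.le_vv c1 C.top_mem))
    · exact fin _ C.top.top_mem hC (h.vv_off he hu c1 j).ge

end IM

end Crest.Agent.X212.Reg33
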